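import Vale.Agent.P269F.Defs
import Vale.Agent.P275FM.Sf

/-!
The exterior algebra of the complex valued real linear forms on the complex m-space is the Fock space.
-/

open scoped Matrix
open Vale.Agent.P272.K Vale.Agent.P299.IX Vale.Agent.P299.IX.Fock Vale.Agent.P281Z.Hg
  Vale.Agent.P281Z.Hg.F1aH Vale.Agent.P281Z.Hg.F1bH

noncomputable section

namespace Vale.Agent.P269FB

/-- Complex valued real linear forms. -/
abbrev Cv (m : ℕ) : Type := (Fin m → ℂ) →L[ℝ] ℂ

/-- The exterior algebra. -/
abbrev La (m : ℕ) : Type := ExteriorAlgebra ℂ (Cv m)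

variable {m n : ℕ}

/-- The coordinates of a form in the basis dz, dzbar. -/
def co (a : Cv m) (l : Fin (m + m)) : ℂ :=
  Fin.addCases (motive := fun _ => ℂ)
    (fun j => (a (Pi.single j 1) - Complex.I * a (Pi.single j Complex.I)) / 2)
    (fun j => (a (Pi.single j 1) + Complex.I * a (Pi.single j Complex.I)) / 2) l

theorem co_hl (a : Cv m) (j : Fin m) :
    co a (hl j) = (a (Pi.single j 1) - Complex.I * a (Pi.single j Complex.I)) / 2 := by
  simp only [co, hl, Fin.addCases_left]

theorem co_ah (a : Cv m) (j : Fin m) :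
    co a (ah j) = (a (Pi.single j 1) + Complex.I * a (Pi.single j Complex.I)) / 2 := by
  simp only [co, ah, Fin.addCases_right]

theorem co_fd (g : Cm m → ℂ) (z : Cm m) (l : Fin (m + m)) : co (fderiv ℝ g z) l = dr l g z := by
  induction l using idx with
  | h j => rw [co_hl, P275MC.ka.dr_hl]; rfl
  | h' j => rw [co_ah, P275MC.ka.dr_ah]; rfl

theorem cx_hl (v : Cm m) (j : Fin m) : cx v (hl j) = v j := by
  simp only [cx, hl, Fin.addCases_left]

theorem cx_ah (v : Cm m) (j : Fin m) : cx v (ah j) = star (v j) := by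
  simp only [cx, ah, Fin.addCases_right]

theorem co_sum (a : Cv m) (v : Cm m) : a v = ∑ l, cx v l * co a l := by
  have h := P275MC.ka.fd (g := a) (z := 0) v a.differentiableAt
  rw [a.fderiv] at h
  rw [h]
  refine Finset.sum_congr rfl fun l _ => ?_
  rw [← co_fd, a.fderiv]

/-- The forms dz and dzbar. -/
def bx (l : Fin (m + m)) : Cv m :=
  Fin.addCases (motive := fun _ => Cv m) (fun j => ContinuousLinearMap.proj j)
    (fun j => (Complex.conjCLE : ℂ →L[ℝ] ℂ).comp (ContinuousLinearMap.proj j)) l

theorem bx_apply (l : Fin (m + m)) (v : Cm m) : bx l v = cx v l := by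
  induction l using idx with
  | h j => rw [cx_hl]; simp only [bx, hl, Fin.addCases_left]; rfl
  | h' j => rw [cx_ah]; simp only [bx, ah, Fin.addCases_right]; rfl

theorem co_bx (l : Fin (m + m)) : co (bx l) = Pi.single l 1 := by
  funext k
  induction k using idx with
  | h j =>
    rw [co_hl, bx_apply, bx_apply]
    induction l using idx with
    | h i =>
      rw [cx_hl, cx_hl]
      by_cases e : i = j
      · subst e; simp
      · simp [e, Ne.symm e, hl_inj]
    | h' i =>
      rw [cx_ah, cx_ah, Pi.single_eq_of_ne (hl_ne j i)]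
      by_cases e : i = j
      · subst e; simp
      · simp [e]
  | h' j =>
    rw [co_ah, bx_apply, bx_apply]
    induction l using idx with
    | h i =>
      rw [cx_hl, cx_hl, Pi.single_eq_of_ne (hl_ne i j).symm]
      by_cases e : i = j
      · subst e; simp
      · simp [e]
    | h' i =>
      rw [cx_ah, cx_ah]
      by_cases e : i = j
      · subst e; simp
      · simp [e, Ne.symm e, ah_inj]

variable (m) in
/-- The coordinates as a linear equivalence. -/
def coE : Cv m ≃ₗ[ℂ] (Fin (m + m) → ℂ) where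
  toFun := co
  map_add' a b := funext fun l => by
    induction l using idx with
    | h j => simp only [Pi.add_apply, co_hl, _root_.add_apply]; ring
    | h' j => simp only [Pi.add_apply, co_ah, _root_.add_apply]; ring
  map_smul' c a := funext fun l => by
    induction l using idx with
    | h j =>
      simp only [Pi.smul_apply, co_hl, _root_.smul_apply, smul_eq_mul, RingHom.id_apply]
      ring
    | h' j =>
      simp only [Pi.smul_apply, co_ah, _root_.smul_apply, smul_eq_mul, RingHom.id_apply]
      ring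
  invFun w := ∑ l, w l • bx l
  left_inv a := by
    ext1 v
    rw [co_sum a v, _root_.sum_apply]
    exact Finset.sum_congr rfl fun l _ => by
      rw [_root_.smul_apply, bx_apply, smul_eq_mul, mul_comm]
  right_inv w := by
    have h : ∀ s : Finset (Fin (m + m)), co (∑ l ∈ s, w l • bx l) = ∑ l ∈ s, w l • co (bx l) := by
      intro s
      funext k
      induction k using idx with
      | h j =>
        simp only [co_hl, Finset.sum_apply, _root_.sum_apply, Pi.smul_apply,
          _root_.smul_apply, smul_eq_mul, Finset.mul_sum, ← Finset.sum_sub_distrib,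
          Finset.sum_div]
        exact Finset.sum_congr rfl fun l _ => by ring
      | h' j =>
        simp only [co_ah, Finset.sum_apply, _root_.sum_apply, Pi.smul_apply,
          _root_.smul_apply, smul_eq_mul, Finset.mul_sum, ← Finset.sum_add_distrib,
          Finset.sum_div]
        exact Finset.sum_congr rfl fun l _ => by ring
    show co (∑ l, w l • bx l) = w
    rw [h]
    simp only [co_bx]
    exact (pi_eq_sum_univ' w).symm

theorem coE_apply (a : Cv m) : coE m a = co a := rfl

theorem sum_bx (a : Cv m) : ∑ l, co a l • bx l = a := (coE m).left_inv a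

variable (m) in
/-- The action on the Fock space. -/
def rho : La m →ₐ[ℂ] Fm m :=
  ExteriorAlgebra.lift ℂ ⟨(⟨⟨epsV, epsV_add⟩, epsV_smul⟩ : (Fin (m + m) → ℂ) →ₗ[ℂ] Fm m).comp
    (coE m).toLinearMap, fun _ => epsV_sq _⟩

theorem rho_i (a : Cv m) : rho m (ExteriorAlgebra.ι ℂ a) = epsV (co a) :=
  ExteriorAlgebra.lift_ι_apply _ _ _ _

variable (m) in
/-- The map to the Fock space. -/
def ph0 : La m →ₗ[ℂ] Fo m where
  toFun u := rho m u *ᵥ ev ∅
  map_add' u v := by rw [map_add, Matrix.add_mulVec]
  map_smul' c u := by rw [map_smul, Matrix.smul_mulVec]; rfl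

theorem ph0_mul (u v : La m) : ph0 m (u * v) = rho m u *ᵥ ph0 m v := by
  show rho m (u * v) *ᵥ ev ∅ = rho m u *ᵥ (rho m v *ᵥ ev ∅)
  rw [map_mul, Matrix.mulVec_mulVec]

theorem ph0_one : ph0 m 1 = ev ∅ := by
  show rho m 1 *ᵥ ev ∅ = _
  rw [map_one, Matrix.one_mulVec]

theorem ph0_surj : Function.Surjective (ph0 m) := fun w => by
  induction w using fk_ind with
  | h0 => exact ⟨1, ph0_one⟩
  | he l u ih =>
    obtain ⟨v, rfl⟩ := ih
    exact ⟨ExteriorAlgebra.ι ℂ (bx l) * v, by rw [ph0_mul, rho_i, co_bx, epsV_single]⟩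
  | ha u v h h' =>
    obtain ⟨a, rfl⟩ := h
    obtain ⟨b, rfl⟩ := h'
    exact ⟨a + b, map_add _ _ _⟩
  | hs c u h =>
    obtain ⟨a, rfl⟩ := h
    exact ⟨c • a, map_smul _ _ _⟩

variable (m) in
/-- A basis of the exterior algebra. -/
def bas : Module.Basis (Finset (Fin (m + m))) ℂ (La m) :=
  (Module.Basis.ofEquivFun (coE m)).ExteriorAlgebra

instance : Module.Finite ℂ (La m) := Module.Finite.of_basis (bas m)

theorem ph0_inj : Function.Injective (ph0 m) :=
  (LinearMap.injective_iff_surjective_of_finrank_eq_finrank (by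
    rw [Module.finrank_eq_card_basis (bas m), Module.finrank_fintype_fun_eq_card])).2 ph0_surj

variable (m) in
/-- The isomorphism with the Fock space. -/
def ph : La m ≃ₗ[ℂ] Fo m := LinearEquiv.ofBijective (ph0 m) ⟨ph0_inj, ph0_surj⟩

theorem ph_one : ph m 1 = ev ∅ := ph0_one

theorem ph_rho (u v : La m) : ph m (u * v) = rho m u *ᵥ ph m v := ph0_mul u v

theorem ph_i (a : Cv m) (v : La m) : ph m (ExteriorAlgebra.ι ℂ a * v) = epsV (co a) *ᵥ ph m v := by
  rw [ph_rho, rho_i]

theorem ph_bx (l : Fin (m + m)) (v : La m) :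
    ph m (ExteriorAlgebra.ι ℂ (bx l) * v) = eps l *ᵥ ph m v := by
  rw [ph_i, co_bx, epsV_single]

/-- Induction on the exterior algebra. -/
theorem la_ind {P : La m → Prop} (h0 : P 1) (he : ∀ l u, P u → P (ExteriorAlgebra.ι ℂ (bx l) * u))
    (ha : ∀ u v, P u → P v → P (u + v)) (hs : ∀ (c : ℂ) u, P u → P (c • u)) (u : La m) : P u := by
  obtain ⟨w, rfl⟩ := (ph m).symm.surjective u
  induction w using fk_ind with
  | h0 => rw [← ph_one, LinearEquiv.symm_apply_apply]; exact h0
  | he l w ih =>
    have h := he l _ ih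
    rwa [← (ph m).symm_apply_apply (_ * _), ph_bx, LinearEquiv.apply_symm_apply] at h
  | ha u v h h' => rw [map_add]; exact ha _ _ h h'
  | hs c u h => rw [map_smul]; exact hs _ _ h

theorem rho_wg (u : La m) : rho m u = wg (ph m u) := by
  induction u using la_ind with
  | h0 => rw [map_one, ph_one, f1a.wg_ev]
  | he l u ih => rw [map_mul, ph_bx, f1a.wg_eps, rho_i, co_bx, epsV_single, ih]
  | ha u v h h' => rw [map_add, map_add, f1a.wg_add, h, h']
  | hs c u h => rw [map_smul, map_smul, f1a.wg_smul, h]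

theorem ph_mul (u v : La m) : ph m (u * v) = wg (ph m u) *ᵥ ph m v := by rw [ph_rho, rho_wg]

theorem ph_alg (c : ℂ) : ph m (algebraMap ℂ (La m) c) = c • ev ∅ := by
  rw [Algebra.algebraMap_eq_smul_one, map_smul, ph_one]

/-- The exterior power of a linear map of the forms. -/
theorem ph_map (T : Cv n →ₗ[ℂ] Cv m) (u : La n) :
    ph m (ExteriorAlgebra.map T u) = lr (Matrix.of fun p l => co (T (bx l)) p) *ᵥ ph n u := by
  induction u using la_ind with
  | h0 => rw [map_one, ph_one, ph_one, lr_ev]
  | he l u ih =>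
    rw [map_mul, ExteriorAlgebra.map_apply_ι, ph_i, ph_bx, ih, Matrix.mulVec_mulVec,
      Matrix.mulVec_mulVec, lr_eps]
    rfl
  | ha u v h h' => rw [map_add, map_add, map_add, Matrix.mulVec_add, h, h']
  | hs c u h => rw [map_smul, map_smul, map_smul, Matrix.mulVec_smul, h]

theorem co_comp {ψ : Cm m → Cm n} {z : Cm m} (h : DifferentiableAt ℝ ψ z) (p : Fin (m + m))
    (l : Fin (n + n)) : co ((bx l).comp (fderiv ℝ ψ z)) p = jc ψ z p l := by
  have e : (fun y => cx (ψ y) l) = (bx l) ∘ ψ := funext fun y => (bx_apply l _).symm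
  show _ = dr p (fun y => cx (ψ y) l) z
  rw [← co_fd, e, fderiv_comp z (bx l).differentiableAt h, (bx l).fderiv]

end Vale.Agent.P269FB
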