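import Vale.Agent.P269FB.Pt
import Vale.Agent.P275MC.Int

/-!
The global dictionary between the forms of P269F and the smooth forms SF.
-/

set_option linter.unusedSectionVars false

open scoped Matrix ContDiff Topology Manifold
open Filter MeasureTheory
open Vale.Agent.P272.K Vale.Agent.P272.K.INT Vale.Agent.P299.IX Vale.Agent.P299.IX.Fock
  Vale.Agent.P281Z.Hg Vale.Agent.P281Z.Hg.G1H Vale.Agent.P281Z.Hg.G2H
open Vale.Agent.P269F (Sm top Ty c1 IsForm Exact intg)
open Vale.Agent.P275MC (ka wd dd pj itc Qc wd_vl dd_vl pj_vl one_vl)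
open Vale.Agent.P275AR (ty)

noncomputable section

namespace Vale.Agent.P269FB

variable {m : ℕ} {X : Type} [TopologicalSpace X] [ChartedSpace (Cm m) X]

/-- The family of local forms u is the smooth form v. -/
def Rel (u : P269F.Fm m X) (v : SF m X) : Prop :=
  ∀ e x, At e x → vl v e (e x) = ph m (u e (e x))

/-- The family of local forms of a smooth form. -/
def fm (v : SF m X) : P269F.Fm m X := fun e z => (ph m).symm (vl v e z)

variable {u u' : P269F.Fm m X} {v v' : SF m X} {e : Chart m X} {x : X}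

theorem rel_fm (v : SF m X) : Rel (fm v) v := fun _ _ _ => ((ph m).apply_symm_apply _).symm

theorem Rel.uniq (h : Rel u v) (h' : Rel u v') : v = v' :=
  ext' fun e x he => (h e x he).trans (h' e x he).symm

theorem Rel.eq_iff (h : Rel u v) (h' : Rel u' v') :
    (∀ e ∈ atlas (Cm m) X, ∀ x ∈ e.source, u e (e x) = u' e (e x)) ↔ v = v' :=
  ⟨fun k => ext' fun e x he => by rw [h e x he, h' e x he, k e he.1 x he.2], fun k e he x hx =>
    (ph m).injective (by rw [← h e x ⟨he, hx⟩, ← h' e x ⟨he, hx⟩, k])⟩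

theorem Rel.congr (h : Rel u v)
    (k : ∀ e ∈ atlas (Cm m) X, ∀ x ∈ e.source, u e (e x) = u' e (e x)) : Rel u' v :=
  fun e x he => by rw [h e x he, k e he.1 x he.2]

theorem Rel.ev (h : Rel u v) (he : At e x) : vl v e =ᶠ[𝓝 (e x)] fun z => ph m (u e z) :=
  ev_at he (Eventually.of_forall fun y hy => h e y hy)

theorem Rel.cd (h : Rel u v) (he : At e x) : ContDiffAt ℝ ∞ (fun z => ph m (u e z)) (e x) :=
  ((vl_isF v).sm e x he).congr_of_eventuallyEq (h.ev he).symm

theorem rel_zero : Rel (0 : P269F.Fm m X) 0 := fun _ _ _ => (map_zero (ph m)).symm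

theorem rel_one : Rel (1 : P269F.Fm m X) (P275MC.one m X) := fun e x he =>
  (one_vl e x he).trans ph_one.symm

theorem Rel.add (h : Rel u v) (h' : Rel u' v') : Rel (u + u') (v + v') := fun e x he => by
  rw [vl_add, h e x he, h' e x he, ← map_add]; rfl

theorem Rel.sub (h : Rel u v) (h' : Rel u' v') : Rel (u - u') (v - v') := fun e x he => by
  rw [vl_sub, h e x he, h' e x he, ← map_sub]; rfl

theorem Rel.neg (h : Rel u v) : Rel (-u) (-v) := fun e x he => by
  rw [vl_neg, h e x he, ← map_neg]; rfl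

theorem Rel.smul (c : ℂ) (h : Rel u v) : Rel (c • u) (c • v) := fun e x he => by
  rw [vl_smul, h e x he, ← map_smul]; rfl

theorem Rel.sum {α : Type*} (s : Finset α) {u : α → P269F.Fm m X} {v : α → SF m X}
    (h : ∀ a ∈ s, Rel (u a) (v a)) : Rel (∑ a ∈ s, u a) (∑ a ∈ s, v a) := fun e x he => by
  rw [vl_sum, Finset.sum_apply, Finset.sum_apply, map_sum]
  exact Finset.sum_congr rfl fun a ha => h a ha e x he

theorem Rel.mul (h : Rel u v) (h' : Rel u' v') : Rel (u * u') (wd v v') := fun e x he => by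
  rw [wd_vl _ _ he, h e x he, h' e x he, ← ph_mul]; rfl

theorem Rel.pow (h : Rel u v) (k : ℕ) (h' : Rel u' v') : Rel (u ^ k * u') ((wd v ^ k) v') := by
  induction k with
  | zero => rwa [pow_zero, pow_zero, one_mul]
  | succ k ih => rw [pow_succ', pow_succ', mul_assoc]; exact h.mul ih

theorem Rel.prod {α : Type*} {u : α → P269F.Fm m X} {v : α → SF m X} (h : ∀ a, Rel (u a) (v a))
    (l : List α) : Rel (l.map u).prod ((l.map fun a => wd (v a)).prod (P275MC.one m X)) := by
  induction l with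
  | nil => exact rel_one
  | cons a l ih => exact (h a).mul ih

variable [IsManifold 𝓘(ℂ, Cm m) ω X]

theorem Rel.isForm (h : Rel u v) : IsForm u := fun e he x hx =>
  ⟨sm_iff.2 (h.cd ⟨he, hx⟩), fun e' he' hx' => (ph m).injective (by
    rw [ph_pb ((tr_sm ⟨he, hx⟩ ⟨he', hx'⟩).differentiableAt (by simp)), ← h e x ⟨he, hx⟩,
      ← h e' x ⟨he', hx'⟩]
    exact (vl_isF v).ch e e' x ⟨he, hx⟩ ⟨he', hx'⟩)⟩

theorem isForm_fm (v : SF m X) : IsForm (fm v) := (rel_fm v).isForm

theorem ex_rel (h : IsForm u) : ∃ v, Rel u v :=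
  (mkf (fun e z => ph m (u e z)) (fun e x he => sm_iff.1 (h e he.1 x he.2).1)
    fun e e' x he he' => by
      rw [(h e he.1 x he.2).2 e' he'.1 he'.2, ph_pb ((tr_sm he he').differentiableAt (by simp))]
      rfl).imp fun _ k e _ he => k e he.1 _ (e.map_source he.2)

theorem isForm_iff : IsForm u ↔ ∃ v, Rel u v := ⟨ex_rel, fun ⟨_, h⟩ => h.isForm⟩

theorem Rel.d (h : Rel u v) : Rel (fun e => P269F.d (u e)) (dd m X v) := fun e x he => by
  rw [dd_vl _ he, ph_d ((h.cd he).differentiableAt (by simp))]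
  exact ka.congr (h.ev he)

theorem Rel.closed_iff (h : Rel u v) :
    (∀ e ∈ atlas (Cm m) X, ∀ x ∈ e.source, P269F.d (u e) (e x) = 0) ↔ dd m X v = 0 :=
  h.d.eq_iff rel_zero

theorem Rel.exact_iff (h : Rel u v) : Exact u ↔ ∃ y, v = dd m X y :=
  ⟨fun ⟨_, k1, k2⟩ => (ex_rel k1).imp fun _ k => (h.eq_iff k.d).1 k2,
    fun ⟨y, k⟩ => ⟨fm y, isForm_fm y, (h.eq_iff (rel_fm y).d).2 k⟩⟩

theorem Rel.ty_iff (h : Rel u v) {p q : ℕ} :
    (∀ e ∈ atlas (Cm m) X, ∀ x ∈ e.source, Ty p q (u e (e x))) ↔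
      ty m X p v = v ∧ pj m X (p + q : ℕ) v = v := by
  constructor
  · intro k
    refine ⟨ext' fun e x he => funext fun I => ?_, ext' fun e x he => funext fun I => ?_⟩
    · rw [P275FM.ty_eq, P275FM.tf_vl' _ _ he]
      by_cases h0 : vl v e (e x) I = 0
      · rw [h0, mul_zero]
      · rw [if_pos (P269FB.ty_iff.1 (k e he.1 x he.2) I (h e x he ▸ h0)).1, one_mul]
    · rw [pj_vl _ _ he]
      by_cases h0 : vl v e (e x) I = 0
      · rw [h0, ite_self]
      · rw [if_pos (by rw [(P269FB.ty_iff.1 (k e he.1 x he.2) I (h e x he ▸ h0)).2])]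
  · rintro ⟨k1, k2⟩ e he x hx
    refine P269FB.ty_iff.2 fun I hI => ?_
    rw [← h e x ⟨he, hx⟩] at hI
    constructor
    · by_contra k
      exact hI (by rw [← k1, P275FM.ty_eq, P275FM.tf_vl' _ _ ⟨he, hx⟩, if_neg k, zero_mul])
    · by_contra k
      exact hI (by rw [← k2, pj_vl _ _ ⟨he, hx⟩, if_neg (by exact_mod_cast k)])

theorem Rel.pb {n : ℕ} {Y : Type} [TopologicalSpace Y] [ChartedSpace (Cm n) Y]
    [IsManifold 𝓘(ℂ, Cm n) ω Y] {f : X → Y} (hf : Smo m n f) {a : P269F.Fm n Y} {b : SF n Y}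
    (h : Rel a b) {c : Chart n Y} (he : At e x) (hc : At c (f x)) :
    vl (P275MC.pb hf b) e (e x) =
      ph m (P269F.pb (fun z => c (f (e.symm z))) (e x) (a c (c (f x)))) := by
  rw [P275MC.pb_vl hf b e c x he hc, ph_pb ((hf.sm e c x he hc).differentiableAt (by simp)),
    h c _ hc]

variable [T2Space X] [CompactSpace X]

theorem dens_congr {D D' : Rw m X ℝ} (hD : IsDensity D)
    (h : ∀ e x, At e x → D' e (e x) = D e (e x)) : IsDensity D' := by
  refine ⟨fun e x hx => (hD.cont e x hx).congr ?_, fun e e' x hx hx' => by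
    rw [h e x hx, h e' x hx', hD.change e e' x hx hx']⟩
  exact ev_at hx (Eventually.of_forall fun y hy => (h e y hy).symm)

theorem dc_top (v : SF m X) : DC fun e z => vl v e z Finset.univ :=
  ⟨dens_congr (dens f1a k1b' v (P275MC.one m X)).1 fun e x he => by
      rw [one_vl e x he, P275MC.Bq_one],
    dens_congr (dens f1a k1b' v (P275MC.one m X)).2 fun e x he => by
      rw [one_vl e x he, P275MC.Bq_one]⟩

theorem itc_itg (v : SF m X) : itc m X v = itg fun e z => vl v e z Finset.univ := by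
  refine P275MC.Ac_ind isOpen_univ (P := fun v => itc m X v = itg fun e z => vl v e z Finset.univ)
    ?_ (fun a b ha hb => ?_) (fun e he a ha => ?_) (by rw [P275MC.Ac_univ]; trivial)
  · rw [map_zero]
    simp [itg, vl_zero, intX_zero]
  · rw [map_add, ha, hb, ← itg_add (dc_top a) (dc_top b)]
    rfl
  · have ha' := P275MC.Ac_mono Set.inter_subset_left ha
    obtain ⟨K, k1, k2, k3⟩ := id ha'
    have h1 := P275MC.cd_chart k1 k2 (g := fun z => vl a e z Finset.univ)
      (fun y hy => contDiffAt_pi.1 ((vl_isF a).sm e y ⟨he, k2 hy⟩) _)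
      fun z hz => by rw [P275MC.Sp_chart he k3 hz]; rfl
    rw [P275MC.itc_chart he ha']
    exact (itg_supp (dc_top a) he k1.isClosed k2 (fun e' x h1 h2 => by rw [k3 x h2 e' h1]; rfl)
      (h1.1.continuous.integrable_of_hasCompactSupport h1.2) (fun _ _ => rfl)
      fun z hz => by rw [(vl_isF a).off e z fun h2 => hz h2.2]; rfl).symm

theorem itg_part {F : Rw m X ℂ} (hF : DC F) {N : ℕ} {e : Fin N → Chart m X} {ρ : Fin N → X → ℝ}
    (h : ∀ i, e i ∈ atlas (Cm m) X ∧ Continuous (ρ i) ∧ tsupport (ρ i) ⊆ (e i).source)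
    (h1 : ∀ x, ∑ i, ρ i x = 1) :
    ∑ i, ∫ z in (e i).target, (ρ i ((e i).symm z) : ℂ) * F (e i) z = itg F := by
  rw [itg, ← hF.1.isIntegral N e ρ (fun i => (h i).1) (fun i => (h i).2.1) (fun i => (h i).2.2) h1,
    ← hF.2.isIntegral N e ρ (fun i => (h i).1) (fun i => (h i).2.1) (fun i => (h i).2.2) h1,
    Complex.ofReal_sum, Complex.ofReal_sum, Finset.mul_sum, ← Finset.sum_add_distrib]
  refine Finset.sum_congr rfl fun i _ => ?_
  rw [← integral_complex_ofReal, ← integral_complex_ofReal, ← integral_const_mul, ← integral_add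
    (integrableOn_dens hF.1 (h i).1 (h i).2.1 (h i).2.2).ofReal
    ((integrableOn_dens hF.2 (h i).1 (h i).2.1 (h i).2.2).ofReal.const_mul _)]
  refine integral_congr_ae (.of_forall fun z => ?_)
  apply Complex.ext <;> simp

theorem Rel.intg (h : Rel u v) : intg u = kap m * itc m X v := by
  have h1 : ∀ (N : ℕ) (e : Fin N → Chart m X) (ρ : Fin N → X → ℝ),
      (∀ i, e i ∈ atlas (Cm m) X ∧ Continuous (ρ i) ∧ tsupport (ρ i) ⊆ (e i).source) →
      (∀ x, ∑ i, ρ i x = 1) →
      ∑ i, ∫ z in (e i).target, (ρ i ((e i).symm z) : ℂ) * top m (u (e i) z) =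
        kap m * itc m X v := fun N e ρ k k1 => by
    rw [itc_itg, ← itg_part (dc_top v) k k1, Finset.mul_sum]
    refine Finset.sum_congr rfl fun i _ => ?_
    rw [← integral_const_mul]
    refine setIntegral_congr_fun (e i).open_target.measurableSet fun z hz => ?_
    have h2 := h (e i) _ (at_tg (k i).1 hz)
    rw [(e i).right_inv hz] at h2
    show _ = _ * (_ * vl v (e i) z Finset.univ)
    rw [top_eq, h2, mul_left_comm]
  have h2 := Classical.epsilon_spec (p := fun I : ℂ => ∀ (N : ℕ) (e : Fin N → Chart m X)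
    (ρ : Fin N → X → ℝ),
    (∀ i, e i ∈ atlas (Cm m) X ∧ Continuous (ρ i) ∧ tsupport (ρ i) ⊆ (e i).source) →
    (∀ x, ∑ i, ρ i x = 1) →
    ∑ i, ∫ z in (e i).target, (ρ i ((e i).symm z) : ℂ) * top m (u (e i) z) = I) ⟨_, h1⟩
  have k := fun i => And.intro ((part m X).mem i) (And.intro ((part m X).cont i) ((part m X).supp i))
  exact (h2 _ _ _ k (part m X).sum).symm.trans (h1 _ _ _ k (part m X).sum)

end Vale.Agent.P269FB
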