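import Vale.Agent.P269FB.Alg
import Vale.Agent.P280Z.Co.Ln0

/-!
The pointwise dictionary between the forms of P269F and the Fock model.
-/

open scoped Matrix ContDiff Topology Kronecker
open Filter
open Vale.Agent.P272.K Vale.Agent.P299.IX Vale.Agent.P299.IX.Fock Vale.Agent.P281Z.Hg
  Vale.Agent.P281Z.Hg.F1aH Vale.Agent.P281Z.Hg.F1bH
open Vale.Agent.P269F (Sm pb top Ty c1)
open Vale.Agent.P275MC (ka)
open Vale.Agent.P280Z.Co.Ln (f1 f2 dT_f1 f2_hess f2_symm hp hp_hl hp_ah)
open ExteriorAlgebra (ι ιMulti)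

noncomputable section

namespace Vale.Agent.P269FB

variable {m n : ℕ} {u v : Cm m → La m} {z : Cm m}

theorem lin_eq (l : La m →ₗ[ℂ] ℂ) (a : La m) :
    l a = ∑ I, ph m a I * l ((ph m).symm (ev I)) := by
  conv_lhs => rw [← (ph m).symm_apply_apply a, pi_eq_sum_univ' (ph m a)]
  simp only [map_sum, map_smul, smul_eq_mul, ev]

theorem sm_iff : Sm u z ↔ ContDiffAt ℝ ∞ (fun y => ph m (u y)) z := by
  refine ⟨fun h => contDiffAt_pi.2 fun I => h ((LinearMap.proj I).comp (ph m).toLinearMap),
    fun h l => ?_⟩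
  simp only [lin_eq l (u _)]
  exact ContDiffAt.sum fun I _ => (contDiffAt_pi.1 h I).mul contDiffAt_const

theorem lin_dif (h : DifferentiableAt ℝ (fun y => ph m (u y)) z) (l : La m →ₗ[ℂ] ℂ) :
    DifferentiableAt ℝ (fun y => l (u y)) z := by
  simp only [lin_eq l (u _)]
  exact DifferentiableAt.fun_sum fun I _ => (differentiableAt_pi.1 h I).mul_const _

theorem dT_sum {α : Type*} (s : Finset α) {F : α → Cm m → Fo m}
    (hF : ∀ i ∈ s, DifferentiableAt ℝ (F i) z) :
    dT (fun y => ∑ i ∈ s, F i y) z = ∑ i ∈ s, dT (F i) z := by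
  simp only [dT, Ka.Dv_sum s hF, Matrix.mulVec_sum]
  exact Finset.sum_comm

theorem ph_d (h : DifferentiableAt ℝ (fun y => ph m (u y)) z) :
    ph m (P269F.d u z) = dT (fun y => ph m (u y)) z := by
  set b := Module.Free.chooseBasis ℂ (La m)
  have h1 : ∀ I, DifferentiableAt ℝ (fun y => b.repr (u y) I) z := fun I => lin_dif h (b.coord I)
  have h2 : (fun y => ph m (u y)) = fun y => ∑ I, b.repr (u y) I • ph m (b I) := funext fun y => by
    conv_lhs => rw [← b.sum_repr (u y)]
    simp only [map_sum, map_smul]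
  rw [h2, dT_sum _ fun I _ => (h1 I).smul_const _, P269F.d, finsum_eq_sum_of_fintype, map_sum]
  refine Finset.sum_congr rfl fun I _ => ?_
  rw [ka.fun_mul (h1 I) (differentiableAt_const _), ka.const, smul_zero, add_zero, ph_i]
  congr 2
  exact funext (co_fd _ z)

theorem d_congr (h : u =ᶠ[𝓝 z] v) : P269F.d u z = P269F.d v z := by
  refine finsum_congr fun I => ?_
  congr 2
  exact EventuallyEq.fderiv_eq (h.mono fun y hy => by simp only [hy])

theorem ph_pb {ψ : Cm m → Cm n} (h : DifferentiableAt ℝ ψ z) (a : La n) :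
    ph m (pb ψ z a) = lr (jc ψ z) *ᵥ ph n a := by
  rw [pb, ph_map]
  congr 2
  ext p l
  exact co_comp h p l

theorem symm_ev (I : FI (m + m)) :
    (ph m).symm (ev I) = ((I.sort (· ≤ ·)).map fun l => ι ℂ (bx l)).prod := by
  rw [LinearEquiv.symm_apply_eq]
  induction I using Finset.induction_on_min with
  | empty => rw [Finset.sort_empty, List.map_nil, List.prod_nil, ph_one]
  | insert i I hi ih =>
    rw [Finset.sort_insert (r := (· ≤ ·)) (fun b hb => (hi b hb).le)
      (fun h' => lt_irrefl i (hi i h')), List.map_cons, List.prod_cons, ph_bx, ← ih, eps_ev_min hi]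

theorem top_list (L : List (Cv m)) (h : L.length ≠ m * 2) : top m (L.map (ι ℂ)).prod = 0 := by
  have e : (L.map (ι ℂ)).prod = ιMulti ℂ L.length L.get := by
    conv_lhs => rw [← List.ofFn_get L, List.map_ofFn]
    rfl
  rw [e, top, ExteriorAlgebra.liftAlternating_apply_ιMulti, Pi.single_eq_of_ne h]
  rfl

variable (m) in
/-- The normalising constant of the top degree. -/
def kap : ℂ := top m ((ph m).symm (ev Finset.univ))

theorem top_eq (a : La m) : top m a = kap m * ph m a Finset.univ := by
  rw [lin_eq, Finset.sum_eq_single Finset.univ, mul_comm, kap]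
  · intro I _ hI
    have e : ∀ L : List (Fin (m + m)), L.map (fun l => ι ℂ (bx l)) = (L.map bx).map (ι ℂ) :=
      fun L => List.map_map.symm
    rw [symm_ev, e, top_list, mul_zero]
    rw [List.length_map, Finset.length_sort, mul_two]
    exact fun e => hI (Finset.eq_univ_of_card I (e.trans (Fintype.card_fin _).symm))
  · exact fun h => (h (Finset.mem_univ _)).elim

theorem top_vol : top m (List.ofFn fun j : Fin m => ι ℂ (bx (hl j)) * ι ℂ (bx (ah j))).prod =
    (-2 * Complex.I) ^ m := by
  have e : (List.ofFn fun j : Fin m => ι ℂ (bx (hl j)) * ι ℂ (bx (ah j))).prod =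
      ιMulti ℂ (m * 2) fun i => bx (if i.modNat = 0 then hl i.divNat else ah i.divNat) := by
    rw [ExteriorAlgebra.ιMulti_apply, List.ofFn_mul, List.prod_flatten, List.map_ofFn]
    congr 2
    funext j
    have h0 : ∀ (k : Fin 2) h, (⟨j * 2 + k, h⟩ : Fin (m * 2)).divNat = j := fun k h =>
      Fin.ext (by simp only [Fin.coe_divNat]; omega)
    have h1 : ∀ (k : Fin 2) h, (⟨j * 2 + k, h⟩ : Fin (m * 2)).modNat = k := fun k h =>
      Fin.ext (by simp only [Fin.coe_modNat]; omega)
    simp only [Function.comp_apply, h0, h1, List.ofFn_succ, List.ofFn_zero, List.prod_cons,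
      List.prod_nil, mul_one]
    rfl
  rw [e, top, ExteriorAlgebra.liftAlternating_apply_ιMulti, Pi.single_eq_same]
  have e2 : (-2 * Complex.I) ^ m = ((1 : Matrix (Fin m) (Fin m) ℂ) ⊗ₖ
      !![1, Complex.I; 1, -Complex.I]).det := by
    rw [Matrix.det_kronecker, Matrix.det_one, one_pow, one_mul, Matrix.det_fin_two_of,
      Fintype.card_fin]
    congr 1
    ring
  rw [e2, ← Matrix.det_submatrix_equiv_self finProdFinEquiv.symm]
  show Matrix.det _ = _
  congr 1
  ext i k
  show bx (if i.modNat = 0 then hl i.divNat else ah i.divNat)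
    (Pi.single k.divNat (if k.modNat = 0 then 1 else Complex.I)) =
      (1 : Matrix (Fin m) (Fin m) ℂ) i.divNat k.divNat *
        !![1, Complex.I; 1, -Complex.I] i.modNat k.modNat
  generalize i.modNat = a, k.modNat = b, i.divNat = p, k.divNat = q
  rw [bx_apply, Matrix.one_apply]
  fin_cases a <;> fin_cases b <;> by_cases h : p = q <;> simp [cx_hl, cx_ah, h]

theorem ph_prod (L : List (La m)) : ph m L.prod = (L.map fun a => wg (ph m a)).prod *ᵥ ev ∅ := by
  induction L with
  | nil => rw [List.prod_nil, ph_one, List.map_nil, List.prod_nil, Matrix.one_mulVec]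
  | cons a L ih => rw [List.prod_cons, ph_mul, ih, List.map_cons, List.prod_cons,
      Matrix.mulVec_mulVec]

theorem kap_prod : kap m * ((List.ofFn fun j : Fin m => eps (hl j) * eps (ah j)).prod *ᵥ ev ∅)
    Finset.univ = (-2 * Complex.I) ^ m := by
  rw [← top_vol, top_eq, ph_prod, List.map_ofFn]
  congr 5
  funext j
  rw [Function.comp_apply, ← rho_wg, map_mul, rho_i, rho_i, co_bx, co_bx, epsV_single, epsV_single]

theorem kap_ne : kap m ≠ 0 := fun h => by
  have h1 := kap_prod (m := m)
  rw [h, zero_mul] at h1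
  exact pow_ne_zero m (mul_ne_zero (by norm_num) Complex.I_ne_zero) h1.symm

theorem has_smul (c : ℂ) (z : Cm m) : HasFDerivAt (fun v : Cm m => c • v)
    (c • ContinuousLinearMap.id ℝ (Cm m)) z := (hasFDerivAt_id z).const_smul c

theorem jc_smul (c : ℂ) : jc (fun v : Cm m => c • v) z =
    Matrix.diagonal fun l => if l.val < m then c else star c := by
  ext p l
  have h := (has_smul c z).differentiableAt
  rw [← co_comp h]
  have e : (bx l).comp (fderiv ℝ (fun v : Cm m => c • v) z) =
      (if l.val < m then c else star c) • bx l := by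
    ext1 w
    rw [(has_smul c z).fderiv]
    show bx l (c • w) = _ * bx l w
    rw [bx_apply, bx_apply]
    induction l using idx with
    | h j => rw [cx_hl, cx_hl, if_pos (hl_lt j)]; rfl
    | h' j => rw [cx_ah, cx_ah, if_neg (ah_lt j), Pi.smul_apply, smul_eq_mul, _root_.star_mul']
  rw [e, ← coE_apply, map_smul, coE_apply, co_bx, Pi.smul_apply, Matrix.diagonal_apply,
    Pi.single_apply, smul_eq_mul]
  by_cases k : p = l
  · rw [if_pos k, if_pos k, mul_one, k]
  · rw [if_neg k, if_neg k, mul_zero]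

theorem tp_le (I : FI (m + m)) : tp I ≤ I.card := Finset.card_filter_le _ _

theorem ph_scale (c : ℂ) (a : La m) (I : FI (m + m)) :
    ph m (pb (fun v : Cm m => c • v) z a) I =
      c ^ tp I * star c ^ (I.card - tp I) * ph m a I := by
  rw [ph_pb (has_smul c z).differentiableAt, jc_smul]
  have h : ∀ K : FI (m + m), ∏ l ∈ K, (if l.val < m then c else star c) =
      c ^ tp K * star c ^ (K.card - tp K) := fun K => by
    rw [Finset.prod_ite, Finset.prod_const, Finset.prod_const, tp,
      ← Finset.card_filter_add_card_filter_not (s := K) fun l => l.val < m, Nat.add_sub_cancel_left]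
  have e : lr (Matrix.diagonal fun l : Fin (m + m) => if l.val < m then c else star c) =
      Matrix.diagonal fun K => c ^ tp K * star c ^ (K.card - tp K) := ext_ev fun K => by
    rw [show lr _ = lam _ from rfl, lam_diagonal_ev, h]
    funext J
    rw [Matrix.mulVec_diagonal, Pi.smul_apply, smul_eq_mul]
    by_cases k : J = K <;> simp [ev, k]
  rw [e, Matrix.mulVec_diagonal]

theorem pow_uniq {a b p q : ℕ} (h : ∀ c : ℂ, c ^ a * star c ^ b = c ^ p * star c ^ q) :
    a = p ∧ b = q := by
  have h1 : a + b = p + q := by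
    have h2 := h 2
    rw [show star (2 : ℂ) = 2 by simp, ← pow_add, ← pow_add] at h2
    exact Nat.pow_right_injective le_rfl (by exact_mod_cast h2)
  have key : ∀ a b k : ℕ, (∀ c : ℂ, c ^ (a + k) * star c ^ b = c ^ a * star c ^ (b + k)) → k = 0 := by
    intro a b k h
    by_contra hk
    obtain ⟨c, hc⟩ := IsAlgClosed.exists_pow_nat_eq Complex.I (Nat.pos_of_ne_zero hk)
    have h0 : c ≠ 0 := by
      rintro rfl
      rw [zero_pow hk] at hc
      exact Complex.I_ne_zero hc.symm
    have h3 := h c
    rw [pow_add, pow_add, ← star_pow c k, hc, mul_assoc, mul_comm Complex.I] at h3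
    have h4 := mul_left_cancel₀ (pow_ne_zero b (star_ne_zero.2 h0))
      (mul_left_cancel₀ (pow_ne_zero a h0) h3)
    have h5 := congrArg Complex.im h4
    norm_num at h5
  rcases le_total a p with hk | hk
  · obtain ⟨k, rfl⟩ := Nat.exists_eq_add_of_le hk
    obtain rfl : b = q + k := by omega
    obtain rfl := key a q k fun c => (h c).symm
    exact ⟨rfl, rfl⟩
  · obtain ⟨k, rfl⟩ := Nat.exists_eq_add_of_le hk
    obtain rfl : q = b + k := by omega
    obtain rfl := key p b k h
    exact ⟨rfl, rfl⟩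

theorem ty_iff {p q : ℕ} {a : La m} :
    Ty p q a ↔ ∀ I, ph m a I ≠ 0 → tp I = p ∧ I.card = p + q := by
  refine ⟨fun h I hI => ?_, fun h c => (ph m).injective (funext fun I => ?_)⟩
  · have h1 := pow_uniq fun c => mul_right_cancel₀ hI
      ((ph_scale c a I).symm.trans (by rw [h c, map_smul]; rfl))
    have h2 := tp_le I
    omega
  · rw [ph_scale, map_smul, Pi.smul_apply, smul_eq_mul]
    by_cases k : ph m a I = 0
    · rw [k, mul_zero, mul_zero]
    · rw [(h I k).1, (h I k).2, Nat.add_sub_cancel_left]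

theorem ph_c1 {h : Cm m → ℝ} (hh : ContDiffAt ℝ ∞ (fun y => (Real.log (h y) : ℂ)) z) :
    ph m (c1 h z) = -((2 * Real.pi : ℂ)⁻¹ •
      (Lw (cHess (fun y => Real.log (h y)) z) *ᵥ ev ∅)) := by
  set g : Cm m → ℂ := fun y => (Real.log (h y) : ℂ) with hg
  have e : (fun y => ph m (pb (fun v => Complex.I • v) 0 (ι ℂ (fderiv ℝ g y)))) =
      fun y => f1 fun c => (2 * Complex.I * hp c - Complex.I) * dr c g y := by
    funext y
    rw [pb, ExteriorAlgebra.map_apply_ι, ← mul_one (ι ℂ _), ph_i, ph_one, f1]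
    congr 2
    funext c
    have h0 := (has_smul Complex.I (0 : Cm m)).differentiableAt
    show co ((fderiv ℝ g y).comp (fderiv ℝ (fun v : Cm m => Complex.I • v) 0)) c = _
    rw [← sum_bx (fderiv ℝ g y), ContinuousLinearMap.finsetSum_comp, ← coE_apply, map_sum,
      Finset.sum_apply]
    simp only [ContinuousLinearMap.smul_comp, map_smul, Pi.smul_apply, coE_apply, co_comp h0,
      jc_smul, co_fd, smul_eq_mul]
    rw [Finset.sum_eq_single c (fun l _ hl => by rw [Matrix.diagonal_apply_ne' _ hl, mul_zero])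
      fun k => (k (Finset.mem_univ _)).elim, Matrix.diagonal_apply_eq, mul_comm]
    congr 1
    induction c using idx with
    | h j => rw [if_pos (hl_lt j), hp_hl]; ring
    | h' j => rw [if_neg (ah_lt j), hp_ah]; simp
  have h1 : ∀ c, DifferentiableAt ℝ (fun y => dr c g y) z := fun c =>
    (Ka.dr_smooth hh).differentiableAt (by simp)
  have h2 : DifferentiableAt ℝ
      (fun y => ph m (pb (fun v => Complex.I • v) 0 (ι ℂ (fderiv ℝ g y)))) z := by
    rw [e]
    exact (P280Z.Co.Ln.f1_smooth fun c => contDiffAt_const.mul (Ka.dr_smooth hh)).differentiableAt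
      (by simp)
  rw [c1, map_smul, ph_d h2, e, dT_f1 fun c => (h1 c).const_mul _]
  have e3 : (fun c c' => dr c (fun y => (2 * Complex.I * hp c' - Complex.I) * dr c' g y) z) =
      (2 * Complex.I) • (fun c c' => hp c' * dr c (dr c' g) z) -
        Complex.I • fun c c' => dr c (dr c' g) z := by
    funext c c'
    rw [Ka.dr_cmul _ (h1 c')]
    simp only [Pi.sub_apply, Pi.smul_apply, smul_eq_mul]
    ring
  rw [e3, map_sub, map_smul, map_smul, f2_hess hh, f2_symm fun c c' => Ka.dr_comm _ _ hh,
    smul_zero, sub_zero, smul_smul, smul_smul, ← neg_smul]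
  congr 1
  have := Real.pi_ne_zero
  field_simp
  rw [Complex.I_sq]
  ring

end Vale.Agent.P269FB
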